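import Vale.Agent.Lib.P220.Torus

open scoped ContDiff
open Vale.Agent.Lib.P220

/-- Nearby Lagrangian conjecture for `T*Tⁿ`, caustic-free case: a closed exact Lagrangian
everywhere transverse to the cotangent fibres is the graph of `dg` and is the time-one image
of the zero section under a compactly supported Hamiltonian flow. -/
theorem Vale.Agent.Results.P220.TransverseTorus.result {n : ℕ}
    (L : Set (EuclideanSpace ℝ (Fin n) × EuclideanSpace ℝ (Fin n)))
    (F : EuclideanSpace ℝ (Fin n) × EuclideanSpace ℝ (Fin n) → ℝ)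
    (hL : IsExactTransverseLagrangian L F) :
    ∃ g : EuclideanSpace ℝ (Fin n) → ℝ, ContDiff ℝ ∞ g ∧
      (∀ q k, IsLatticeVec k → g (q + k) = g q) ∧
      L = {x | x.2 = gradient g x.1} ∧
      ∃ H : EuclideanSpace ℝ (Fin n) × EuclideanSpace ℝ (Fin n) → ℝ, ContDiff ℝ ∞ H ∧
        (∀ x k, IsLatticeVec k → H (x.1 + k, x.2) = H x) ∧
        (∃ R : ℝ, ∀ x, R ≤ ‖x.2‖ → H x = 0) ∧
        ∃ φ : ℝ → EuclideanSpace ℝ (Fin n) →
            EuclideanSpace ℝ (Fin n) × EuclideanSpace ℝ (Fin n),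
          (∀ q, φ 0 q = (q, 0)) ∧
          (∀ q, ∀ t ∈ Set.Icc (0 : ℝ) 1,
            HasDerivAt (fun s => φ s q) (hamVF H (φ t q)) t) ∧
          Set.range (φ 1) = L := by
  obtain ⟨g, hg, hper, hLg⟩ := graph_of_exact hL
  obtain ⟨R, hR⟩ := hL.bounded
  have hgR : ∀ q, ‖gradient g q‖ ≤ R := by
    intro q
    have hq : ((q, gradient g q) : EuclideanSpace ℝ (Fin n) × EuclideanSpace ℝ (Fin n)) ∈ L := by
      rw [hLg]
      simp
    have h2 := hR (q, gradient g q) hq
    simpa using h2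
  obtain ⟨H, hH, hHper, hHsupp, φ, h0, hφ, hrange⟩ := ham_isotopy g hg hper R hgR
  exact ⟨g, hg, hper, hLg, H, hH, hHper, hHsupp, φ, h0, hφ, hrange.trans hLg.symm⟩
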